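import Vale.Agent.P052.Embed

theorem Vale.Agent.Results.P052.Borsuk9.result (d : ℕ) (hd : 9 ≤ d) :
    ∃ Y : Set (EuclideanSpace ℝ (Fin d)), Bornology.IsBounded Y ∧ 0 < Metric.diam Y ∧
      ¬ ∃ A : Fin (d + 1) → Set (EuclideanSpace ℝ (Fin d)),
        (⋃ i, A i) = Y ∧ ∀ i, Metric.diam (A i) < Metric.diam Y := by
  obtain ⟨k, rfl⟩ := Nat.exists_eq_add_of_le hd
  exact Vale.Agent.P052.borsuk_fails k
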